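import Mathlib

namespace Vale.Agent.P154

/-- The `q`-state Potts channel: probability that the child has spin `j` when the parent has
spin `i`, namely `lam * 1_{i=j} + (1-lam)/q`. -/
noncomputable def potts (q : ℕ) (lam : ℝ) (i j : Fin q) : ℝ :=
  (if i = j then lam else 0) + (1 - lam) / q

/-- Rooted (planar) trees cut at distance `n` from the root: at `n = 0` a single vertex, at
`n + 1` a root with some number `k` of children, each carrying a tree cut at distance `n`. -/
def Tree : ℕ → Type
  | 0 => Unit
  | n + 1 => Σ k : ℕ, (Fin k → Tree n)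

/-- Spin assignments on the set `L_n` of vertices at distance exactly `n` from the root. -/
def Spins (q : ℕ) : (n : ℕ) → Tree n → Type
  | 0, _ => Fin q
  | n + 1, ⟨k, t⟩ => (c : Fin k) → Spins q n (t c)

instance instFintypeSpins (q : ℕ) : (n : ℕ) → (t : Tree n) → Fintype (Spins q n t)
  | 0, _ => inferInstanceAs (Fintype (Fin q))
  | n + 1, ⟨k, t⟩ =>
    letI : ∀ c : Fin k, Fintype (Spins q n (t c)) := fun c => instFintypeSpins q n (t c)
    inferInstanceAs (Fintype ((c : Fin k) → Spins q n (t c)))

/-- Probability of the Galton-Watson tree cut at distance `n`, offspring law `ν`: every vertex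
at distance `< n` with `k` children contributes a factor `ν k`. -/
noncomputable def treeProb (ν : ℕ → ℝ) : (n : ℕ) → Tree n → ℝ
  | 0, _ => 1
  | n + 1, ⟨k, t⟩ => ν k * ∏ c : Fin k, treeProb ν n (t c)

/-- Law of the broadcast process: the conditional probability, given that the root spin is `i`,
that the spins on `L_n` are `η`. Independently along each edge to a child, the child's spin is
`j` with probability `potts q lam i j`. -/
noncomputable def lik (q : ℕ) (lam : ℝ) : (n : ℕ) → (t : Tree n) → Fin q → Spins q n t → ℝ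
  | 0, _, i, η => if i = (show Fin q from η) then 1 else 0
  | n + 1, ⟨k, t⟩, i, η =>
      ∏ c : Fin k, ∑ j : Fin q, potts q lam i j * lik q lam n (t c) j (η c)

/-- Probability, for a uniform root spin, that the spins on `L_n` are `η`. -/
noncomputable def evid (q : ℕ) (lam : ℝ) (n : ℕ) (t : Tree n) (η : Spins q n t) : ℝ :=
  ∑ i : Fin q, (1 / q : ℝ) * lik q lam n t i η

/-- Posterior probability that the root spin is `i`, given the tree and the spins `η` on `L_n`. -/
noncomputable def post (q : ℕ) (lam : ℝ) (n : ℕ) (t : Tree n) (η : Spins q n t) (i : Fin q) : ℝ :=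
  (1 / q : ℝ) * lik q lam n t i η / evid q lam n t η

/-- The quantity `a_n = E[ (1/2) ∑_i |P(σ_ρ = i | T, σ_{L_n}) - 1/q| ]` for the Galton-Watson tree
with offspring law `ν` and the Potts channel. -/
noncomputable def advantage (ν : ℕ → ℝ) (q : ℕ) (lam : ℝ) (n : ℕ) : ℝ :=
  ∑' t : Tree n, treeProb ν n t *
    ∑ η : Spins q n t, evid q lam n t η * ((1 / 2) * ∑ i : Fin q, |post q lam n t η i - 1 / q|)

/-- Reconstruction: `a_n` has a positive limit. -/
def Reconstruction (ν : ℕ → ℝ) (q : ℕ) (lam : ℝ) : Prop :=
  ∃ l : ℝ, 0 < l ∧ Filter.Tendsto (advantage ν q lam) Filter.atTop (nhds l)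

/-- Nonreconstruction: `a_n` tends to zero. -/
def Nonreconstruction (ν : ℕ → ℝ) (q : ℕ) (lam : ℝ) : Prop :=
  Filter.Tendsto (advantage ν q lam) Filter.atTop (nhds 0)

/-- Offspring law of the rooted `d`-ary tree: exactly `d` children. -/
def regularOffspring (d : ℕ) (k : ℕ) : ℝ := if k = d then 1 else 0

/-- Poisson offspring law with mean `d`. -/
noncomputable def poissonOffspring (d : ℝ) (k : ℕ) : ℝ :=
  Real.exp (-d) * d ^ k / (k.factorial : ℝ)

end Vale.Agent.P154
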